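import Vale.Agent.P022D.Dk.Red
import Vale.Agent.P022D.G.Defs
import Vale.Agent.P022.H567.Tw.Main

/-!
P022D: the top of the proof (statements).
-/

set_option linter.all false

open Matrix NumberField

noncomputable section

namespace Vale.Agent.P022D.Top

open Vale.Agent.P022 Vale.Agent.P022D.Dk

section

variable {E : Type} [NontriviallyNormedField E]

/-- the system of traces and determinants of Frobenius elements -/
def sys {N : ℕ} (r : GQ →* GL (Fin 2) E) (φ : PA N → GQ) : Gen N → E :=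
  Sum.elim (fun ℓ => (r (φ ℓ) : Matrix (Fin 2) (Fin 2) E).trace)
    (fun ℓ => (r (φ ℓ) : Matrix (Fin 2) (Fin 2) E).det)

/-- the system of `r` is a limit of systems of eigenvalues of level `N` -/
def LimR (N : ℕ) [NeZero N] (r : GQ →* GL (Fin 2) E) : Prop :=
  ∀ φ : PA N → GQ, (∀ ℓ, IsFrob ℓ.1 (φ ℓ)) → H567.Tw.Lim N (sys r φ)

/-- the residual system of `r` occurs at level `N` -/
def ResR (N : ℕ) [NeZero N] (r : GQ →* GL (Fin 2) E) : Prop :=
  ∃ k : ℕ, ∀ φ : PA N → GQ, (∀ ℓ, IsFrob ℓ.1 (φ ℓ)) → ∀ X : G.Wd N,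
    (∀ i < k, G.sg N i X = 0) → ‖FreeAlgebra.lift ℤ (sys r φ) X‖ < 1

/-- the residual determinant is trivial -/
def DetOne (r : GQ →* GL (Fin 2) E) : Prop :=
  ∀ g, ‖(r g : Matrix (Fin 2) (Fin 2) E).det - 1‖ < 1

/-- `det r = ω χ ^ i`, `χ` the cyclotomic character (weight `i + 1`) -/
def DetW (r : GQ →* GL (Fin 2) E) (m : ℕ) (ω : (ZMod m)ˣ →* Eˣ) (i : ℕ) : Prop :=
  ∀ ε : ℝ, 0 < ε → ∃ j : ℕ, ∀ (g : GQ) (a : ℕ) (u : (ZMod m)ˣ), (u : ZMod m) = (a : ZMod m) →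
    (∀ ζ : Qb, ζ ^ (2 ^ j * m) = 1 → g ζ = ζ ^ a) →
      ‖(r g : Matrix (Fin 2) (Fin 2) E).det - ((ω u : Eˣ) : E) * (a : E) ^ i‖ < ε

/-- the residual representation is unramified at `l` -/
def RUnr (r : GQ →* GL (Fin 2) E) (l : ℕ) : Prop :=
  ∀ g, G.Inert l g → ∀ i j, ‖((r g : Matrix (Fin 2) (Fin 2) E) - 1) i j‖ < 1

/-- the decomposition groups at `l` have residual trace zero -/
def Uni (r : GQ →* GL (Fin 2) E) (l : ℕ) : Prop :=
  ∀ P : Ideal (𝓞 Qb), P.IsPrime → (l : 𝓞 Qb) ∈ P → ∀ g : GQ, (∀ x ∈ P, g • x ∈ P) →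
    ‖(r g : Matrix (Fin 2) (Fin 2) E).trace‖ < 1

/-- `r` and `r'` are congruent -/
def Cg (r r' : GQ →* GL (Fin 2) E) : Prop :=
  ∀ g i j, ‖((r g : Matrix (Fin 2) (Fin 2) E) - (r' g : Matrix (Fin 2) (Fin 2) E)) i j‖ < 1

/-- the level `N₀` is a good residual level for `r` -/
structure Lev (r : GQ →* GL (Fin 2) E) (N₀ : ℕ) [NeZero N₀] : Prop where
  odd : Odd N₀
  res : ResR N₀ r
  ram : ∀ l : ℕ, l.Prime → l ∣ N₀ → ¬ RUnr r l
  uni : ∀ l : ℕ, l.Prime → Uni r l → ¬ l ^ 2 ∣ N₀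

end

/-- **TH**: the base case, from the theta series of the starting files -/
def TH : Prop := ∀ (E : Type) [NontriviallyNormedField E] [NormedAlgebra ℚ_[2] E]
  [IsUltrametricDist E] [FiniteDimensional ℚ_[2] E] (r : GQ →* GL (Fin 2) E) (M : Subgroup GQ),
  Continuous r → {p : ℕ | p.Prime ∧ ¬ UnrAt r p}.Finite → Mono r M → DetOne r →
  ∃ (N₀ : ℕ) (_ : NeZero N₀), Lev r N₀

/-- the theorem in fixed weight `i + 1` over fields with a primitive `n`-th root of unity; `S` is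
a set of odd primes with product `R` -/
def COREn (R N₀ n : ℕ) [NeZero R] [NeZero N₀] : Prop :=
  ∀ (E : Type) [NontriviallyNormedField E] [NormedAlgebra ℚ_[2] E]
  [IsUltrametricDist E] [FiniteDimensional ℚ_[2] E] (r : GQ →* GL (Fin 2) E) (M : Subgroup GQ)
  (S : Finset ℕ) (ω : (ZMod R)ˣ →* Eˣ) (i : ℕ),
  Continuous r → OddRep r → Mono r M → DetOne r → (∀ l ∈ S, l.Prime ∧ l ≠ 2) →
  R = ∏ l ∈ S, l → (∀ p : ℕ, p.Prime → p ≠ 2 → p ∉ S → UnrAt r p) → Lev r N₀ → 1 ≤ i →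
  DetW r R ω i → (∃ ζ : E, IsPrimitiveRoot ζ n) → LimR ((N₀ * R) ^ 2) r

/-- **CORE** -/
def CORE : Prop := ∀ (R N₀ : ℕ) [NeZero R] [NeZero N₀], ∃ n : ℕ, 0 < n ∧ COREn R N₀ n

/-- the hypothesis of `Dk.reduce` -/
def MAIN : Prop := ∀ (E : Type) [NontriviallyNormedField E] [NormedAlgebra ℚ_[2] E]
  [IsUltrametricDist E] [FiniteDimensional ℚ_[2] E] (r : GQ →* GL (Fin 2) E) (M : Subgroup GQ),
  Continuous r → OddRep r → {p : ℕ | p.Prime ∧ ¬ UnrAt r p}.Finite → Mono r M → Q1Concl E r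

/-- **END**: normalisations, interpolation in the weight, twists -/
def END : Prop := TH → CORE → MAIN

/-- the statement of the hand-in -/
theorem final (hM : MAIN) (E : Type) [NontriviallyNormedField E] [NormedAlgebra ℚ_[2] E]
    [FiniteDimensional ℚ_[2] E] (r : GQ →* GL (Fin 2) E) (hc : Continuous r)
    (ho : St.OddRep r) (hS : {p : ℕ | p.Prime ∧ ¬ St.UnrAt r p}.Finite)
    (k : Type) [Field k] [CharP k 2] (ρ : GQ →* GL (Fin 2) k) (hr : St.IsRes r ρ)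
    (hs : Group.IsSolvable ρ.range) (hi : St.IrrCyc ρ) : St.Q1Concl r :=
  St.q1Concl r (reduce hM E r hc ho hS ρ hr hs hi)

end Vale.Agent.P022D.Top
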