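import Vale.Agent.P022D.Top.Spec
import Vale.Agent.P022D.R.Defs
import Vale.Agent.P022D.NR.Main
import Vale.Agent.P022D.Core.Defs

/-!
P022D: the integral model of the representation, in normal form.
-/

set_option linter.all false

open Matrix NumberField IsLocalRing
open scoped NormedField Valued

noncomputable section

namespace Vale.Agent.P022D.Top

open Vale.Agent.P022 Vale.Agent.P022D.Dk
open Vale.Agent.P027M.S (mx)
open Vale.Agent.P022D.Sel (M2 Dh)

/-- the unit ball -/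
abbrev Ob (E : Type) [NontriviallyNormedField E] [IsUltrametricDist E] : Subring E := 𝒪[E]

section ball

variable {E : Type} [NontriviallyNormedField E] [IsUltrametricDist E]

theorem mem_Ob {x : E} : x ∈ Ob E ↔ ‖x‖ ≤ 1 := Valued.integer.mem_iff

theorem norm_Ob (x : Ob E) : ‖(x : E)‖ ≤ 1 := mem_Ob.1 x.2

theorem unit_Ob {x : Ob E} : IsUnit x ↔ ‖(x : E)‖ = 1 := Valued.integer.isUnit_iff_norm_eq_one

theorem max_Ob {x : Ob E} : x ∈ maximalIdeal (Ob E) ↔ ‖(x : E)‖ < 1 := by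
  rw [mem_maximalIdeal, mem_nonunits_iff, unit_Ob]
  exact ⟨fun h => lt_of_le_of_ne (norm_Ob x) h, fun h => h.ne⟩

theorem res_Ob {x : Ob E} : residue (Ob E) x = 0 ↔ ‖(x : E)‖ < 1 := by
  rw [residue_eq_zero_iff, max_Ob]

theorem dvd_Ob {x y : Ob E} : x ∣ y ↔ ‖(y : E)‖ ≤ ‖(x : E)‖ := by
  constructor
  · rintro ⟨c, rfl⟩
    rw [Subring.coe_mul, norm_mul]
    exact mul_le_of_le_one_right (norm_nonneg _) (norm_Ob c)
  · intro h
    by_cases hx : (x : E) = 0
    · rw [hx, norm_zero, norm_le_zero_iff] at h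
      rw [show y = 0 from Subtype.ext h]
      exact dvd_zero _
    · exact ⟨⟨y / x, mem_Ob.2 (by
        rw [norm_div]; exact div_le_one_of_le₀ h (norm_nonneg _))⟩,
        Subtype.ext (mul_div_cancel₀ _ hx).symm⟩

variable [NormedAlgebra ℚ_[2] E] [FiniteDimensional ℚ_[2] E]

instance cpt_Ob : CompactSpace (Ob E) := by
  haveI : ProperSpace E := FiniteDimensional.proper ℚ_[2] E
  have e : ((Ob E : Subring E) : Set E) = Metric.closedBall 0 1 := by
    ext x
    rw [mem_closedBall_zero_iff]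
    exact mem_Ob
  have h : IsCompact ((Ob E : Subring E) : Set E) := e ▸ isCompact_closedBall 0 1
  exact isCompact_iff_compactSpace.1 h

theorem both_Ob : IsDiscreteValuationRing (Ob E) ∧ Finite (ResidueField (Ob E)) := by
  letI : (Valued.v : Valuation E NNReal).RankOne :=
    inferInstanceAs (NormedField.valuation (K := E)).RankOne
  exact (Valued.integer.compactSpace_iff_completeSpace_and_isDiscreteValuationRing_and_finite_residueField.1
    cpt_Ob).2

instance dvr_Ob : IsDiscreteValuationRing (Ob E) := both_Ob.1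

instance fin_Ob : Finite (ResidueField (Ob E)) := both_Ob.2

theorem pow_Ob {ϖ : Ob E} (h : Irreducible ϖ) (n : ℕ) {x : Ob E} :
    x ∈ maximalIdeal (Ob E) ^ n ↔ ‖(x : E)‖ ≤ ‖(ϖ : E)‖ ^ n := by
  rw [h.maximalIdeal_eq, Ideal.span_singleton_pow, Ideal.mem_span_singleton, dvd_Ob,
    SubmonoidClass.coe_pow, norm_pow]

open scoped Pointwise in
instance cpl_Ob : IsAdicComplete (maximalIdeal (Ob E)) (Ob E) where
  prec' f hf := by
    obtain ⟨ϖ, hϖ⟩ := IsDiscreteValuationRing.exists_irreducible (Ob E)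
    let S n : Set (Ob E) := {x | ‖(x : E) - f n‖ ≤ ‖(ϖ : E)‖ ^ n}
    have hm : ∀ n x, x ∈ S n ↔ x - f n ∈ maximalIdeal (Ob E) ^ n := fun n x => by
      rw [pow_Ob hϖ]; rfl
    have hS n : S (n + 1) ⊆ S n := fun x hx => by
      have h1 := hf n.le_succ
      rw [SModEq.sub_mem, smul_eq_mul, Ideal.mul_top] at h1
      rw [hm] at hx ⊢
      have := sub_mem (Ideal.pow_le_pow_right n.le_succ hx) h1
      rwa [sub_sub, add_sub_cancel] at this
    have h n : IsClosed (S n) :=
      isClosed_le (continuous_subtype_val.sub continuous_const).norm continuous_const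
    obtain ⟨L, hL⟩ := (h 0).isCompact.nonempty_iInter_of_sequence_nonempty_isCompact_isClosed S hS
      (fun n => ⟨f n, (hm _ _).2 (by simp)⟩) h
    refine ⟨L, fun n => ?_⟩
    rw [SModEq.sub_mem, smul_eq_mul, Ideal.mul_top, ← neg_mem_iff, neg_sub]
    exact (hm _ _).1 (Set.mem_iInter.1 hL n)

theorem norm_two_lt : ‖(2 : E)‖ < 1 := by
  have : (2 : E) = algebraMap ℚ_[2] E 2 := (map_ofNat _ 2).symm
  rw [this, norm_algebraMap']
  exact_mod_cast Padic.norm_p_lt_one (p := 2)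

theorem two_ne : (2 : E) ≠ 0 := by
  have : (2 : E) = algebraMap ℚ_[2] E 2 := (map_ofNat _ 2).symm
  rw [this, map_ne_zero]
  exact two_ne_zero

instance coef_Ob : Core.Coef (Ob E) where
  cpl := cpl_Ob
  fin := fin_Ob
  two := max_Ob.2 norm_two_lt
  ne := fun h => two_ne (E := E) (congrArg Subtype.val h)

instance char_Ob : CharP (ResidueField (Ob E)) 2 :=
  (CharP.charP_iff_prime_eq_zero Nat.prime_two).2 (by
    have := (res_Ob (x := (2 : Ob E))).2 norm_two_lt
    rwa [map_ofNat] at this)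

end ball

section setup

variable {E : Type} [NontriviallyNormedField E] [IsUltrametricDist E]

/-- `r'` is an integral model of `r` in the normal form of `S` -/
structure Su (r : GQ →* GL (Fin 2) E) (M : Subgroup GQ) (T : Finset ℕ)
    (S : R.Dat (Ob E) (ResidueField (Ob E))) (r' : GQ →* M2 (Ob E)) : Prop where
  red : S.red = residue (Ob E)
  hT : S.T = T
  dh : Dh S.rb M
  det : ∀ g, (mx S.rb g).det = 1
  lift : ∀ g, (r' g).map S.red = mx S.rb g
  cont : ∀ k : ℕ,
    IsOpen {g : GQ | (r' g).map (Ideal.Quotient.mk (maximalIdeal (Ob E) ^ k)) = 1}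
  tr : ∀ g, ((r' g).trace : E) = (r g : Matrix (Fin 2) (Fin 2) E).trace
  dt : ∀ g, ((r' g).det : E) = (r g : Matrix (Fin 2) (Fin 2) E).det
  dg : r' S.g0 0 1 = 0 ∧ r' S.g0 1 0 = 0
  nm : r' S.g1 0 1 = S.lam
  one : ∀ g, r g = 1 → r' g = 1
  ent : ∀ g i j, ∃ x : Ob E, (x : E) = (r g : Matrix (Fin 2) (Fin 2) E) i j ∧
    residue (Ob E) x = mx S.rb g i j

/-- the matrices with entries in the unit ball -/
def intg (r : GQ →* GL (Fin 2) E) (h : ∀ g i j, ‖(r g : Matrix (Fin 2) (Fin 2) E) i j‖ ≤ 1) :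
    GQ →* M2 (Ob E) where
  toFun g := Matrix.of fun i j => ⟨(r g : Matrix (Fin 2) (Fin 2) E) i j, mem_Ob.2 (h g i j)⟩
  map_one' := by
    ext i j
    by_cases e : i = j <;> simp [Matrix.one_apply, e]
  map_mul' g k := by
    ext i j
    simp [Matrix.mul_apply, Fin.sum_univ_two]

theorem intg_coe (r : GQ →* GL (Fin 2) E)
    (h : ∀ g i j, ‖(r g : Matrix (Fin 2) (Fin 2) E) i j‖ ≤ 1) (g : GQ) (i j : Fin 2) :
    (intg r h g i j : E) = (r g : Matrix (Fin 2) (Fin 2) E) i j := rfl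

theorem open_ker {Γ : Type} [Monoid Γ] (f : GQ →* Γ) (h : {g | f g = 1} ∈ nhds (1 : GQ)) :
    IsOpen {g | f g = 1} := by
  have e : {g | f g = 1} = (f.toHomUnits.ker : Set GQ) := by
    ext g
    rw [SetLike.mem_coe, MonoidHom.mem_ker, Units.ext_iff]
    rfl
  rw [e] at h ⊢
  exact Subgroup.isOpen_of_mem_nhds _ h

variable [NormedAlgebra ℚ_[2] E] [FiniteDimensional ℚ_[2] E]

theorem intg_open {r : GQ →* GL (Fin 2) E} (hc : Continuous r)
    (h : ∀ g i j, ‖(r g : Matrix (Fin 2) (Fin 2) E) i j‖ ≤ 1) (k : ℕ) :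
    IsOpen {g : GQ | (intg r h g).map (Ideal.Quotient.mk (maximalIdeal (Ob E) ^ k)) = 1} := by
  obtain ⟨ϖ, hϖ⟩ := IsDiscreteValuationRing.exists_irreducible (Ob E)
  have h0 : 0 < ‖(ϖ : E)‖ ^ k :=
    pow_pos (norm_pos_iff.2 fun e => hϖ.ne_zero (Subtype.ext e)) k
  refine open_ker ((Ideal.Quotient.mk (maximalIdeal (Ob E) ^ k)).mapMatrix.toMonoidHom.comp
    (intg r h)) ?_
  have ho : IsOpen (⋂ i, ⋂ j, {g : GQ | ‖((r g : Matrix (Fin 2) (Fin 2) E) - 1) i j‖ <
      ‖(ϖ : E)‖ ^ k}) := isOpen_iInter_of_finite fun i => isOpen_iInter_of_finite fun j =>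
    isOpen_lt (((Units.continuous_val.comp hc).sub continuous_const).matrix_elem i j).norm
      continuous_const
  refine Filter.mem_of_superset (ho.mem_nhds (by simpa using h0)) fun g hg => ?_
  ext i j
  have h1 := Set.mem_iInter.1 (Set.mem_iInter.1 hg i) j
  have h2 : (intg r h g - 1) i j ∈ maximalIdeal (Ob E) ^ k := (pow_Ob hϖ k).2 (le_of_eq_of_le (by
    congr 1
    by_cases e : i = j <;> simp [Matrix.one_apply, e, intg_coe]) (le_of_lt h1))
  have h3 := Ideal.Quotient.eq.2 h2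
  change Ideal.Quotient.mk _ (intg r h g i j) = _
  rw [h3]
  by_cases e : i = j <;> simp [Matrix.one_apply, e]

theorem tf_of {G A : Type} [Group G] [CommRing A] (ρ : G →* M2 A) :
    H346.TF (fun g => (ρ g).trace) (Matrix.GeneralLinearGroup.det.comp ρ.toHomUnits) := by
  refine ⟨by simp, fun g h => by rw [map_mul, map_mul, Matrix.trace_mul_comm], fun g h => ?_⟩
  have e : ρ h * ρ h⁻¹ = 1 := by rw [← map_mul, mul_inv_cancel, map_one]
  have e2 : (ρ h).det • ρ h⁻¹ = (ρ h).adjugate := by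
    rw [← one_mul (ρ h⁻¹), ← Matrix.smul_mul, ← Matrix.adjugate_mul, mul_assoc, e, mul_one]
  change (ρ g).trace * (ρ h).trace = (ρ (g * h)).trace + (ρ h).det * (ρ (g * h⁻¹)).trace
  rw [map_mul, map_mul, ← smul_eq_mul (ρ h).det, ← Matrix.trace_smul, ← Matrix.mul_smul, e2,
    Matrix.adjugate_fin_two]
  simp [Matrix.trace_fin_two, Matrix.mul_apply, Fin.sum_univ_two]
  ring

/-- **SETUP** -/
theorem setup {r : GQ →* GL (Fin 2) E} {M : Subgroup GQ} (hc : Continuous r) (hM : Mono r M)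
    (hd : DetOne r) (T : Finset ℕ) (hT : T.Nonempty) : ∃ S r', Su r M T S r' := by
  let r0 := intg r hM.int
  let π := residue (Ob E)
  let rm : GQ →* M2 (ResidueField (Ob E)) := π.mapMatrix.toMonoidHom.comp r0
  have erm : ∀ g i j, rm g i j = π (r0 g i j) := fun _ _ _ => rfl
  have ez : ∀ g i j, rm g i j = 0 ↔ ‖(r g : Matrix (Fin 2) (Fin 2) E) i j‖ < 1 :=
    fun g i j => res_Ob
  have etr : ∀ g, ((r0 g).trace : E) = (r g : Matrix (Fin 2) (Fin 2) E).trace := fun g => by
    rw [Matrix.trace_fin_two, Matrix.trace_fin_two]; rfl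
  have edt : ∀ g, ((r0 g).det : E) = (r g : Matrix (Fin 2) (Fin 2) E).det := fun g => by
    rw [Matrix.det_fin_two, Matrix.det_fin_two]; rfl
  have hdet : ∀ g, (rm g).det = 1 := fun g => by
    have h1 : π ((r0 g).det - 1) = 0 := res_Ob.2 (by
      rw [AddSubgroupClass.coe_sub, edt]; exact hd g)
    rw [map_sub, map_one, sub_eq_zero, RingHom.map_det] at h1
    exact h1
  obtain ⟨g0, hg0, -, hne⟩ := hM.reg
  obtain ⟨g1, hg1, hcy⟩ := hM.out
  have hne' : rm g0 0 0 ≠ rm g0 1 1 := fun e => by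
    have h1 : π (r0 g0 0 0 - r0 g0 1 1) = 0 := by rw [map_sub, ← erm, ← erm, e, sub_self]
    exact (res_Ob.1 h1).ne hne
  have hd1 := hdet g1
  rw [Matrix.det_fin_two, (ez _ _ _).2 (hM.ant g1 hg1).1, zero_mul, zero_sub] at hd1
  have n01 : rm g1 0 1 ≠ 0 := fun e => by simp [e] at hd1
  have n10 : rm g1 1 0 ≠ 0 := fun e => by simp [e] at hd1
  have z01 := (ez _ _ _).2 (hM.dia g0 hg0).1
  have z10 := (ez _ _ _).2 (hM.dia g0 hg0).2
  have htr : ∀ g, π (r0 g).trace = (rm g).trace := fun g => by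
    rw [Matrix.trace_fin_two, Matrix.trace_fin_two, map_add]; rfl
  obtain ⟨α, β, hs, hp, hα, hβ⟩ := NR.exists_roots π residue_surjective (maximalIdeal (Ob E))
    (fun a => (residue_eq_zero_iff a).symm) (t := (r0 g0).trace) (d := (r0 g0).det)
    (a := rm g0 0 0) (b := rm g0 1 1) (by rw [htr, Matrix.trace_fin_two]) (by
      rw [RingHom.map_det]
      change _ = (rm g0).det
      rw [Matrix.det_fin_two, z01, zero_mul, sub_zero]) hne'
  obtain ⟨ρ, h1, h2, h3, h4, h5, z, hz⟩ := NR.nr π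
    (fun a ha => (notMem_maximalIdeal).1 fun h => ha ((residue_eq_zero_iff a).2 h)) (tf_of r0) rm htr
    (g0 := g0) (g1 := g1) (g2 := g1) (α := α) (β := β) (lam := r0 g1 0 1) hs hp (by
      rw [hα, hβ]
      ext i j
      fin_cases i <;> fin_cases j <;> simp [z01, z10]) (by rw [hα, hβ]; exact hne') n01 n10 rfl
  have key : ∀ (J : Ideal (Ob E)) g, (r0 g).map (Ideal.Quotient.mk J) = 1 →
      (ρ g).map (Ideal.Quotient.mk J) = 1 := fun J g hg => by
    ext i j
    have h6 := NR.sub_mem_of_sum (t := fun g => (r0 g).trace) hz J (g := g) (g' := 1) (fun k => by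
      refine Ideal.Quotient.eq.1 ?_
      have e : ∀ A : M2 (Ob E), Ideal.Quotient.mk J A.trace =
          (A.map (Ideal.Quotient.mk J)).trace := fun A => by
        rw [Matrix.trace_fin_two, Matrix.trace_fin_two, map_add]; rfl
      rw [mul_one, map_mul r0, e, e, Matrix.map_mul, hg, mul_one]) i j
    rw [Matrix.map_apply, Ideal.Quotient.eq.2 h6, map_one]
    by_cases e : i = j <;> simp [Matrix.one_apply, e]
  have hopen : IsOpen {g : GQ | rm.toHomUnits g = 1} := by
    have h6 := intg_open hc hM.int 1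
    refine open_ker _ (Filter.mem_of_superset (h6.mem_nhds (by simp)) fun g hg => ?_)
    refine Units.ext ?_
    ext i j
    have h7 := congrFun (congrFun hg i) j
    have h8 : r0 g i j - (1 : M2 (Ob E)) i j ∈ maximalIdeal (Ob E) ^ 1 := Ideal.Quotient.eq.1 (by
      refine h7.trans ?_
      by_cases e : i = j <;> simp [Matrix.one_apply, e])
    rw [pow_one, ← residue_eq_zero_iff, map_sub, sub_eq_zero] at h8
    refine h8.trans ?_
    by_cases e : i = j <;> simp [Matrix.one_apply, e]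
  refine ⟨⟨π, rm.toHomUnits, T, g0, g1, r0 g1 0 1, hT.choose, residue_surjective, z01, z10, hne',
    n01, hT.choose_spec⟩, ρ, rfl, rfl, ⟨fun g hg => ⟨(ez _ _ _).2 (hM.dia g hg).1,
    (ez _ _ _).2 (hM.dia g hg).2⟩, fun g hg => ⟨(ez _ _ _).2 (hM.ant g hg).1,
    (ez _ _ _).2 (hM.ant g hg).2⟩, hopen, ⟨g0, hg0, hne'⟩, g1, hg1, hcy⟩, hdet, h3, fun k => ?_,
    fun g => by rw [h1, etr], fun g => by rw [h2]; exact edt g, by
      change ρ g0 0 1 = 0 ∧ ρ g0 1 0 = 0
      rw [h4]; exact ⟨rfl, rfl⟩, h5, fun g hg => ?_, fun g i j => ⟨r0 g i j, rfl, rfl⟩⟩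
  · exact open_ker ((Ideal.Quotient.mk (maximalIdeal (Ob E) ^ k)).mapMatrix.toMonoidHom.comp ρ)
      (Filter.mem_of_superset ((intg_open hc hM.int k).mem_nhds (by simp)) fun g hg => key _ g hg)
  · have h6 : r0 g = 1 := by
      ext i j
      rw [intg_coe, hg]
      by_cases e : i = j <;> simp [Matrix.one_apply, e]
    have h7 := key ⊥ g (by rw [h6]; simp)
    ext i j
    have h8 := congrFun (congrFun h7 i) j
    have h9 : ρ g i j - (1 : M2 (Ob E)) i j ∈ (⊥ : Ideal (Ob E)) := Ideal.Quotient.eq.1 (by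
      refine h8.trans ?_
      by_cases e : i = j <;> simp [Matrix.one_apply, e])
    rw [sub_eq_zero.1 (Ideal.mem_bot.1 h9)]

end setup

end Vale.Agent.P022D.Top
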