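import Vale.Agent.P022D.Top.Su
import Vale.Agent.P022D.Fm.Rows
import Vale.Agent.P022D.Fm.Basic
import Vale.Agent.P022D.Fm.Out
import Vale.Agent.P022D.V.Emb

/-!
P022D: the theorem in fixed weight from the patching argument and the forms side.
-/

set_option linter.all false

open Matrix NumberField IsLocalRing

noncomputable section

namespace Vale.Agent.P022D.Top

open Vale.Agent.P022 Vale.Agent.P022D.V Vale.Agent.P022D.Fm

section

variable {O F : Type} [CommRing O] [IsLocalRing O] [Co O] [Field F] [CharP F 2] {U : Fm.Su O F}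
  [hC : ∀ l : U.L.C, Fact l.1.Prime] {r n : ℕ} {q : Fin r → ℕ} (P : Lq U r n q)

/-- the Whittaker module inside the tuples -/
def ioW : P.W0 →+ FT P.M (RD O) where
  toFun w := (((show P.X.Wh from w) : U.GG P.M) : AM O P.M)
  map_zero' := rfl
  map_add' _ _ := rfl

theorem ioW_inj : Function.Injective (ioW P) := fun _ _ h => Subtype.ext (Subtype.ext h)

theorem ioW_smul (p : As.Tg O) (w : P.W0) : ioW P (p • w) =
    ((P.ev p • ((show P.X.Wh from w) : U.GG P.M) : U.GG P.M) : AM O P.M) := rfl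

theorem ex_PA {M p : ℕ} {u : (ZMod M)ˣ} (hp : p.Prime) (h2 : p ≠ 2) (hu : (u : ZMod M) = p) :
    ∃ h : p.Prime ∧ ¬ p ∣ 2 * M, u = uP (⟨p, h⟩ : PA M) := by
  have h1 : Nat.Coprime p M := (ZMod.isUnit_iff_coprime p M).1 (hu ▸ u.isUnit)
  refine ⟨⟨hp, fun h => ?_⟩, Units.ext (hu.trans (ZMod.coe_unitOfCoprime _ _).symm)⟩
  rcases (Nat.Prime.dvd_mul hp).1 h with h | h
  · exact h2 ((Nat.prime_dvd_prime_iff_eq hp Nat.prime_two).1 h)
  · exact (Nat.Prime.coprime_iff_not_dvd hp).1 h1 h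

end

/-- **CORE** -/
theorem core (hL : As.L2) (hF : FORMS) (hC : ∀ (O : Type) [CommRing O] [Co O], CLAD O) :
    CORE := by
  intro R N₀ _ _
  refine ⟨nn R N₀, nn_pos (NeZero.ne R) (NeZero.ne N₀), ?_⟩
  intro E _ _ _ _ r M S ω i hc ho hM hd hS hR hu hv hi hW hz
  obtain ⟨ζ, hζ⟩ := hz
  obtain ⟨co⟩ := V.emb E (Ob E) fun x => mem_Ob
  obtain ⟨U, hU, hϖ, hN, htr, hdt⟩ := exSu hc ho hM hd hS hR hu hv hi hW hζ
  haveI : ∀ l : U.L.C, Fact l.1.Prime := fun l => ⟨(hU.prC l.2).1⟩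
  obtain ⟨Cc, P, hP⟩ := hF (Ob E) _ U hU
  have hO := hL (Ob E) _ U.ϖ U.S U.L _ _ _ _ _ _ hϖ
    ⟨hU.ok, hU.lam, fun l hl hT Q hQ hlQ s hs => hU.unr l hl hT s ⟨Q, hQ, hlQ, hs⟩⟩ hP
  have eM : P.M = U.N := by rw [P.lv.eq, Fin.prod_univ_zero, mul_one]
  refine limR (hC _) htr hdt (M := P.M) (i := U.i) (z := U.z) (P.lv.odd hU) (P.lv.three hU)
    (pow_dvd_pow_of_dvd (eM ▸ hN) 2) (eM ▸ hU.z) (ioW P) (ioW_inj P)
    (fun w => (show P.X.Wh from w).1.2.1) (fun w => (mem_of_sub (show P.X.Wh from w).2.1).1.2)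
    (fun p u φ hp h2 hu hφ w => ?_) (fun p u φ hp h2 hu hφ w => ?_) hϖ.not_isUnit hO
  · obtain ⟨h, rfl⟩ := ex_PA hp h2 hu
    rw [ioW_smul, show P.ev (As.tt φ) = P.X.t φ from MvPolynomial.eval₂Hom_X' _ _ _]
    exact P.ok.op.frT ⟨p, h⟩ φ hφ _
  · obtain ⟨h, rfl⟩ := ex_PA hp h2 hu
    rw [ioW_smul, show P.ev (As.dd φ) = P.X.d φ from MvPolynomial.eval₂Hom_X' _ _ _]
    exact P.ok.op.frS ⟨p, h⟩ φ hφ _

end Vale.Agent.P022D.Top
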