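import Vale.Agent.P022D.As.Defs2
import Vale.Agent.P022D.W.Loc
import Vale.Agent.P022D.Th.Spec
import Vale.Agent.P022.H853.L3.Cyc

/-!
P022D: the target of the forms side (statement).
-/

set_option linter.all false

open IsLocalRing

noncomputable section

namespace Vale.Agent.P022D.Top

open Vale.Agent.P022 Vale.Agent.P022D.R
open Vale.Agent.P027M.S (mx)
open Vale.Agent.P022D.Loc (Pl)
open Vale.Agent.P022D.As (Tg)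

/-- words in the Hecke operators as elements of the ring of symbols -/
def wG (O : Type) [CommRing O] {N : ℕ} (φ : PA N → GQ) : G.Wd N →ₐ[ℤ] Tg O :=
  FreeAlgebra.lift ℤ (Sum.elim (fun ℓ => As.tt (φ ℓ)) fun ℓ => As.dd (φ ℓ))

/-- the elements of `W0` are classical of level `N` -/
def Cl0 (O : Type) [CommRing O] (N : ℕ) [NeZero N] (W0 : Type) [AddCommGroup W0]
    [Module (Tg O) W0] : Prop :=
  ∀ v : W0, ∃ k : ℕ, ∀ φ : PA N → GQ, (∀ ℓ, IsFrob ℓ.1 (φ ℓ)) → ∀ x : G.Wd N,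
    (∀ i < k, G.sg N i x = 0) → wG O φ x • v = 0

/-- **the fixed data of the forms side** -/
structure Fd {O F : Type} [CommRing O] [IsLocalRing O] [Field F] (ϖ : O) (S : Dat O F) (L : Pl O)
    (e : ℕ → Fin 2 → O) (u : ℕ → O) (v : ℕ → Fin 2 → O) (R N₀ : ℕ) [NeZero R] [NeZero N₀]
    (ω : (ZMod R)ˣ →* Oˣ) (i ℓ₀ : ℕ) : Prop where
  irr : Irreducible ϖ
  fx : As.Fx S L
  wc : ∀ l ∈ L.W, Loc.Wc S L l (e l) (u l) (v l)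
  hR : R = ∏ l ∈ L.W ∪ L.C, l
  odd : Odd N₀
  occ : ∀ φ : ℕ → GQ, (∀ p : ℕ, p.Prime → IsFrob p (φ p)) →
    Th.Occ N₀ fun p => (L.r (φ p)).trace
  sup : ∀ l : ℕ, l.Prime → l ∣ N₀ → l ∈ L.W ∪ L.C
  ram : ∀ l ∈ L.C, l ∣ N₀ → mx S.rb (L.τ l) ≠ 1
  sq : ∀ l ∈ L.C, ¬ l ^ 2 ∣ N₀
  w3 : L.W.Nonempty ∨ ∃ l ∈ L.C, mx S.rb (L.τ l) ≠ 1
  one : 1 ≤ i
  det : ∀ j : ℕ, ∃ j' : ℕ, ∀ (g : GQ) (p : ℕ), (∀ ζ : Qb, ζ ^ 2 ^ j' = 1 → g ζ = ζ ^ p) →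
    ϖ ^ j ∣ (L.r g).det - (ω (H853.cyc R g) : O) * (p : O) ^ i
  om : ∀ a, S.red (ω a : O) = 1
  par : (ω (-1) : O) * (-1) ^ i = -1
  l0 : ℓ₀.Prime ∧ ¬ ℓ₀ ∣ 2 * (N₀ * R) ∧ ∀ φ, IsFrob ℓ₀ φ → IsUnit (L.r φ).trace

/-- the output of the forms side -/
def Fo {O F : Type} [CommRing O] [IsLocalRing O] [Field F] (ϖ : O) (S : Dat O F) (L : Pl O)
    (N : ℕ) : Prop :=
  ∃ (N' : ℕ) (_ : NeZero N') (I : Type) (Y0 : I → Type) (W0 : Type)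
    (_ : ∀ i, AddCommGroup (Y0 i)) (_ : ∀ i, Module (Tg O) (Y0 i)) (_ : AddCommGroup W0)
    (_ : Module (Tg O) W0) (ses : I → I → I → Prop) (ig : I) (iJ : Finset L.C → I),
    N' ∣ N ∧ As.HD2 ϖ S L Y0 W0 ses ig iJ ∧ Cl0 O N' W0

/-- **FMS**: the forms side -/
def FMS : Prop := ∀ (R N₀ : ℕ) [NeZero R] [NeZero N₀], ∃ n : ℕ, 0 < n ∧
  ∀ (O F : Type) [CommRing O] [IsDomain O] [IsDiscreteValuationRing O] [Core.Coef O] [V.Co O]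
    [Field F] [Finite F] [CharP F 2] (ϖ : O) (S : Dat O F) (L : Pl O) (e : ℕ → Fin 2 → O)
    (u : ℕ → O) (v : ℕ → Fin 2 → O) (ω : (ZMod R)ˣ →* Oˣ) (i ℓ₀ : ℕ),
    Fd ϖ S L e u v R N₀ ω i ℓ₀ → (∃ ζ : O, IsPrimitiveRoot ζ n) → Fo ϖ S L ((N₀ * R) ^ 2)

end Vale.Agent.P022D.Top
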