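import Vale.Agent.P022D.Top.Core
import Vale.Agent.P022D.Th.All
import Vale.Agent.P022D.End.Main
import Vale.Agent.P022D.As.L2
import Vale.Agent.P022D.V.All1
import Vale.Agent.P022D.V.Clad
import Vale.Agent.P022D.V.Cla2

/-!
P022D: everything except the forms side.
-/

namespace Vale.Agent.P022D.Top

theorem main (hF : Fm.FORMS) : MAIN :=
  End.endT Th.th0 (core As.l2 hF fun O _ _ => V.clad O (V.cla O) (V.lift O) (V.All.div O))

end Vale.Agent.P022D.Top
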