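import Vale.Agent.P022D.Dh.Ndh
import Vale.Agent.P022D.Loc.Expl
import Vale.Agent.P022.H20.L3.Fin3
import Vale.Agent.P022D.G.Defs

/-!
P022D: ramification of the residual representation.
-/

set_option linter.all false

open Matrix NumberField

noncomputable section

namespace Vale.Agent.P022D.Top

open Vale.Agent.P022 Vale.Agent.P022D.R
open Vale.Agent.P027M.S (mx)
open Vale.Agent.P022D.Sel (M2 Dh)
open Vale.Agent.P022D.Loc (Pl)

theorem fix_sq {g : GQ} (hg : ∀ z : Qb, z ^ 8 = 1 → g z = z) {x : Qb} {e : ℕ}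
    (hx : x ^ 2 = 2 ^ e ∨ x ^ 2 = -2 ^ e) : g x = x := by
  obtain ⟨z, hz⟩ : ∃ z : Qb, z ^ 4 = -1 := IsAlgClosed.exists_pow_nat_eq (-1 : Qb) (by norm_num)
  have h1 : g z = z := hg z (by linear_combination (z ^ 4 - 1) * hz)
  have h2 : g 2 = 2 := map_ofNat g 2
  have key : ∀ y : Qb, g y = y → x ^ 2 = y ^ 2 → g x = x := fun y hy e => by
    rcases sq_eq_sq_iff_eq_or_eq_neg.1 e with e | e
    · rw [e, hy]
    · rw [e, map_neg, hy]
  have hs : (z - z ^ 3) ^ 2 = 2 := by linear_combination (z ^ 2 - 2) * hz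
  rcases hx with hx | hx
  · exact key ((z - z ^ 3) ^ e) (by rw [map_pow, map_sub, map_pow, h1])
      (by rw [hx, ← pow_mul, mul_comm, pow_mul, hs])
  · exact key (z ^ 2 * (z - z ^ 3) ^ e) (by rw [map_mul, map_pow, map_pow, map_sub, map_pow, h1])
      (by rw [hx, mul_pow, ← pow_mul _ e, mul_comm e, pow_mul, hs, ← pow_mul, hz, neg_one_mul])

/-- a quadratic field outside the eighth cyclotomic field is ramified at an odd prime -/
theorem ramK (H : Subgroup GQ) (ho : IsOpen (H : Set GQ)) (hi : H.index = 2) {g : GQ} (hg : g ∉ H)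
    (h8 : ∀ z : Qb, z ^ 8 = 1 → g z = z) : ∃ l : ℕ, l.Prime ∧ l ≠ 2 ∧
      ∀ P : Ideal (𝓞 Qb), P.IsPrime → (l : 𝓞 Qb) ∈ P →
        ∃ σ : GQ, (∀ x : 𝓞 Qb, σ • x - x ∈ P) ∧ σ ∉ H := by
  obtain ⟨K, _, _, j, h2, rfl, -⟩ := Dh.Nd.quad H ho hi
  by_contra hn
  have h0 : (discr K).natAbs ≠ 0 := Int.natAbs_ne_zero.2 (NumberField.discr_ne_zero K)
  have h1 := Nat.eq_prime_pow_of_unique_prime_dvd (p := 2) h0 fun {d} hd hdm => by
    by_contra e
    exact hn ⟨d, hd, e, fun P hP hl => H916.exists_inertia j h2 (Int.natCast_dvd.2 hdm) hP hl⟩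
  obtain ⟨B⟩ := H724.exists_qb h2
  generalize (discr K).natAbs.primeFactorsList.length = n at h1
  have hr : j B.ω * j B.ω = (B.p : Qb) + (B.q : Qb) * j B.ω := by
    have := congrArg (fun x : 𝓞 K => j (x : K)) B.rel
    simpa using this
  have hx : (2 * j B.ω - B.q) ^ 2 = ((discr K : ℤ) : Qb) := by
    rw [B.discr_eq]
    push_cast
    linear_combination 4 * hr
  have h3 : g (2 * j B.ω - B.q) = 2 * j B.ω - B.q := by
    refine fix_sq h8 (e := n) ?_
    rw [hx]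
    rcases Int.natAbs_eq (discr K) with e | e
    · left
      rw [e, h1]
      simp
    · right
      rw [e, h1]
      simp
  rw [map_sub, map_mul, map_intCast, map_ofNat, sub_left_inj,
    mul_right_inj' (two_ne_zero : (2 : Qb) ≠ 0)] at h3
  refine hg fun x => ?_
  have h4 : H916.tw g j = j := by
    apply IsLocalization.ringHom_ext (nonZeroDivisors (𝓞 K))
    ext y
    obtain ⟨a, b, hab⟩ := B.gen y
    change g (j (y : K)) = j (y : K)
    rw [hab]
    simp [h3]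
  exact DFunLike.congr_fun h4 x

/-- the inertia groups above `l` are conjugate -/
theorem conjI {l : ℕ} (hl : l.Prime) {P Q : Ideal (𝓞 Qb)} (hP : P.IsPrime) (hlP : (l : 𝓞 Qb) ∈ P)
    (hQ : Q.IsPrime) (hlQ : (l : 𝓞 Qb) ∈ Q) {σ : GQ} (h : ∀ x : 𝓞 Qb, σ • x - x ∈ P) :
    ∃ c : GQ, ∀ x : 𝓞 Qb, (c⁻¹ * (σ * c)) • x - x ∈ Q := by
  obtain ⟨c, hc⟩ := H916.exists_smul (algebraMap ℚ Qb) hP hQ
    ((H20.below_eq hl hP hlP).trans (H20.below_eq hl hQ hlQ).symm)
  have hQc : Q = H20.cP (c : GQ)⁻¹ P := by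
    rw [hc]
    ext x
    rw [H20.mem_cP, Ideal.mem_pointwise_smul_iff_inv_smul_mem]
  exact ⟨(c : GQ)⁻¹, hQc ▸ H20.conj_inertia h⟩

variable {O F : Type} [CommRing O] [IsLocalRing O] [Field F] [CharP F 2] {S : Dat O F} {L : Pl O}

/-- at a unipotent prime the ramification is seen on `τ` -/
theorem tau_ne (hL : L.Ok S) {l : ℕ} (hl : l ∈ L.C) {σ : GQ} (hσ : G.Inert l σ)
    (h1 : S.rb σ ≠ 1) : mx S.rb (L.τ l) ≠ 1 := by
  intro hτ
  have hl' := Finset.mem_union_right L.W hl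
  obtain ⟨P, hP, hlP, h⟩ := hσ
  obtain ⟨c, hc⟩ := conjI (hL.pr l hl').1 hP hlP (hL.hP l hl').1 (hL.hP l hl').2 h
  obtain ⟨N, hN⟩ := (hL.tm l hl').tame _ S.rb hL.dh.opn
  obtain ⟨k, p, hp, e⟩ := hN.cyc _ hc
  obtain ⟨m, ⟨m, rfl⟩, hm⟩ := hN.odd p hp
  have h2 : S.rb p ^ 2 = 1 := by
    have t := hL.uni l hl p (hN.ID (hN.NI hp))
    have d := hL.det p
    rw [Matrix.trace_fin_two] at t
    rw [Matrix.det_fin_two] at d
    have two : (2 : F) = 0 := CharTwo.two_eq_zero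
    apply Units.ext
    change (mx S.rb p) ^ 2 = 1
    ext i j
    fin_cases i <;> fin_cases j <;> simp [pow_two, Matrix.mul_apply, Fin.sum_univ_two]
    · linear_combination mx S.rb p 0 0 * t - d - two
    · linear_combination mx S.rb p 0 1 * t
    · linear_combination mx S.rb p 1 0 * t
    · linear_combination mx S.rb p 1 1 * t - d - two
  rw [pow_succ, pow_mul, h2, one_pow, one_mul] at hm
  have h3 := congrArg S.rb e
  rw [map_mul S.rb (L.τ l ^ k), hm, map_pow, show S.rb (L.τ l) = 1 from Units.ext hτ, one_pow,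
    one_mul, map_mul, map_mul, map_inv, inv_mul_eq_one, eq_comm, mul_eq_right] at h3
  exact h1 h3

/-- **W3** -/
theorem w3 (hL : L.Ok S) (hu : ∀ l : ℕ, l.Prime → l ∉ S.T → ∀ g, G.Inert l g → L.r g = 1) :
    L.W.Nonempty ∨ ∃ l ∈ L.C, mx S.rb (L.τ l) ≠ 1 := by
  obtain ⟨g, hg, h8⟩ := hL.dh.cyc
  obtain ⟨l, hl, h2, h⟩ := ramK L.H (Dh.Nd.dh_open hL.dh) (Dh.Nd.dh_index hL.dh) hg h8
  obtain ⟨P, hP, hlP⟩ := H916.exists_prime hl
  obtain ⟨σ, h3, h4⟩ := h P hP hlP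
  have h5 : S.rb σ ≠ 1 := fun e => by
    have h6 := (hL.dh.ad σ h4).1
    rw [show mx S.rb σ = 1 from congrArg Units.val e] at h6
    simp at h6
  have h6 : l ∈ S.T := by
    by_contra e
    refine h5 (Units.ext ?_)
    change mx S.rb σ = 1
    rw [← hL.lift, hu l hl e σ ⟨P, hP, hlP, h3⟩, Matrix.map_one _ (map_zero _) (map_one _)]
  rw [hL.hT, Finset.mem_insert, Finset.mem_insert, Finset.mem_union] at h6
  rcases h6 with e | e | e | e
  · exact absurd e hl.ne_zero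
  · exact absurd e h2
  · exact Or.inl ⟨l, e⟩
  · exact Or.inr ⟨l, e, tau_ne hL e ⟨P, hP, hlP, h3⟩ h5⟩

end Vale.Agent.P022D.Top
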