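import Vale.Agent.P022D.Top.Ram
import Vale.Agent.P022D.Top.Setup
import Vale.Agent.P022D.Fm.Defs
import Vale.Agent.P022D.W.Loc
import Vale.Agent.P022.H443.Tri
import Vale.Agent.P022.H790.L3.CTw

/-!
P022D: the fixed data of the forms side.
-/

set_option linter.all false

open Matrix NumberField IsLocalRing

noncomputable section

namespace Vale.Agent.P022D.Top

open Vale.Agent.P022 Vale.Agent.P022D.Dk
open Vale.Agent.P027M.S (mx)
open Vale.Agent.P027M.M (ze)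

theorem ex_cy {m x : ℕ} (hm : m ≠ 0) (h : Nat.Coprime x m) : ∃ g : GQ, Fm.Cy m g x := by
  haveI : NeZero m := ⟨hm⟩
  obtain ⟨g, hg⟩ := H790.CT.cyc_surj m (ZMod.unitOfCoprime x h)
  refine ⟨g, fun ζ hζ => ?_⟩
  rw [H853.cyc_spec (m := m) g hζ, hg, ZMod.coe_unitOfCoprime, ZMod.val_natCast]
  exact (pow_eq_pow_mod x hζ).symm

theorem lev_dvd {W C : Finset ℕ} (hd : Disjoint W C) {N₀ : ℕ} (h0 : N₀ ≠ 0)
    (hs : ∀ l : ℕ, l.Prime → l ∣ N₀ → l ∈ W ∪ C) (hp : ∀ l ∈ C, l.Prime)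
    (hq : ∀ l ∈ C, ¬ l ^ 2 ∣ N₀) : (∏ l ∈ W, l ^ N₀.factorization l) ∣ N₀ ∧
      N₀ ∣ (∏ l ∈ W, l ^ N₀.factorization l) * ∏ l ∈ C, l := by
  have e : N₀ = (∏ l ∈ W, l ^ N₀.factorization l) * ∏ l ∈ C, l ^ N₀.factorization l := by
    rw [← Finset.prod_union hd]
    conv_lhs => rw [← Nat.factorization_prod_pow_eq_self h0]
    refine Finsupp.prod_of_support_subset _ (fun l hl => ?_) _ fun _ _ => pow_zero _
    rw [Nat.support_factorization, Nat.mem_primeFactors] at hl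
    exact hs l hl.1 hl.2.1
  refine ⟨⟨_, e⟩, ?_⟩
  conv_lhs => rw [e]
  refine mul_dvd_mul_left _ (Finset.prod_dvd_prod_of_dvd _ _ fun l hl => ?_)
  have h1 : ¬ 2 ≤ N₀.factorization l := fun h =>
    hq l hl (((hp l hl).pow_dvd_iff_le_factorization h0).2 h)
  conv_rhs => rw [← pow_one l]
  exact pow_dvd_pow _ (by omega)

/-- the order of the root of unity -/
def nn (R N₀ : ℕ) : ℕ := N₀ * R * ∏ l ∈ R.primeFactors, (l ^ 2 - 1)

theorem sq_pos {l : ℕ} (h : l.Prime) : 0 < l ^ 2 - 1 :=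
  Nat.sub_pos_of_lt (Nat.one_lt_pow two_ne_zero h.one_lt)

theorem nn_pos {R N₀ : ℕ} (h : R ≠ 0) (h' : N₀ ≠ 0) : 0 < nn R N₀ :=
  Nat.mul_pos (Nat.mul_pos h'.bot_lt h.bot_lt)
    (Finset.prod_pos fun l hl => sq_pos (Nat.prime_of_mem_primeFactors hl))

variable {E : Type} [NontriviallyNormedField E] [IsUltrametricDist E]

theorem norm_root {x : E} {n : ℕ} (hn : n ≠ 0) (h : x ^ n = 1) : ‖x‖ = 1 :=
  (pow_eq_one_iff_of_nonneg (norm_nonneg _) hn).1 (by rw [← norm_pow, h, norm_one])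

theorem om_le {R : ℕ} [NeZero R] (ω : (ZMod R)ˣ →* Eˣ) (x : ZMod R) :
    ‖MulChar.ofUnitHom ω x‖ ≤ 1 := by
  by_cases h : IsUnit x
  · obtain ⟨u, rfl⟩ := h
    rw [MulChar.ofUnitHom_coe]
    refine (norm_root (n := Fintype.card (ZMod R)ˣ) Fintype.card_ne_zero ?_).le
    rw [← Units.val_pow_eq_pow_val, ← map_pow, pow_card_eq_one, map_one, Units.val_one]
  · rw [MulChar.map_nonunit _ h, norm_zero]
    exact zero_le_one

/-- the central character -/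
def omO {R : ℕ} [NeZero R] (ω : (ZMod R)ˣ →* Eˣ) (x : ℕ) : Ob E :=
  ⟨MulChar.ofUnitHom ω (x : ZMod R), mem_Ob.2 (om_le ω _)⟩

variable [NormedAlgebra ℚ_[2] E] [FiniteDimensional ℚ_[2] E] [V.Co (Ob E)]

/-- **the fixed data exist** -/
theorem exSu {R N₀ : ℕ} [NeZero R] [NeZero N₀] {r : GQ →* GL (Fin 2) E} {M : Subgroup GQ}
    {S : Finset ℕ} {ω : (ZMod R)ˣ →* Eˣ} {i : ℕ} (hc : Continuous r) (ho : OddRep r)
    (hM : Mono r M) (hd : DetOne r) (hS : ∀ l ∈ S, l.Prime ∧ l ≠ 2) (hR : R = ∏ l ∈ S, l)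
    (hu : ∀ p : ℕ, p.Prime → p ≠ 2 → p ∉ S → UnrAt r p) (hL : Lev r N₀) (hi : 1 ≤ i)
    (hW : DetW r R ω i) {ζ : E} (hζ : IsPrimitiveRoot ζ (nn R N₀)) :
    ∃ U : Fm.Su (Ob E) (ResidueField (Ob E)), U.Ok ∧ Irreducible U.ϖ ∧ U.N ∣ N₀ * R ∧
      (∀ g, ((U.L.r g).trace : E) = (r g : Matrix (Fin 2) (Fin 2) E).trace) ∧
      ∀ g, ((U.L.r g).det : E) = (r g : Matrix (Fin 2) (Fin 2) E).det := by
  classical
  obtain ⟨D, r', hD⟩ := setup hc hM hd (insert 0 (insert 2 S)) (Finset.insert_nonempty _ _)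
  obtain ⟨c, hcj⟩ := H443.exists_isConj
  obtain ⟨ϖ, hϖ⟩ := IsDiscreteValuationRing.exists_irreducible (Ob E)
  haveI := (cpl_Ob (E := E))
  have hker : ∀ x, D.red x = 0 ↔ x ∈ maximalIdeal (Ob E) := fun x => by
    rw [hD.red, residue_eq_zero_iff]
  obtain ⟨L, e, u, v, ok, -, rfl, -, hWC, hC, hw⟩ := Loc.expl2 (Ob E) _ D M r' c S hker hD.dh hD.det
    hD.hT hS hcj hD.lift hD.cont (Subtype.ext (by rw [hD.dt, ho c hcj]; rfl))
  have dv : ∀ {x : Ob E}, ϖ ∣ x ↔ x ∈ maximalIdeal (Ob E) := by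
    intro x
    rw [hϖ.maximalIdeal_eq, Ideal.mem_span_singleton]
  have hunr : ∀ l : ℕ, l.Prime → l ∉ D.T → ∀ g, G.Inert l g → L.r g = 1 := by
    rintro l hl hT g ⟨P, hP, hlP, hg⟩
    rw [hD.hT, Finset.mem_insert, Finset.mem_insert, not_or, not_or] at hT
    exact hD.one g (hu l hl hT.2.1 hT.2.2 P hP hlP g hg)
  have hram : ∀ l : ℕ, l.Prime → l ∣ N₀ → ∃ σ, G.Inert l σ ∧ D.rb σ ≠ 1 := fun l hl h => by
    by_contra hn
    push Not at hn
    refine hL.ram l hl h fun g hg a b => ?_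
    obtain ⟨x, h1, h2⟩ := hD.ent g a b
    rw [show mx D.rb g = 1 from congrArg Units.val (hn g hg)] at h2
    have h3 : residue (Ob E) (x - (1 : Matrix (Fin 2) (Fin 2) (Ob E)) a b) = 0 := by
      rw [map_sub, h2]
      by_cases e : a = b <;> simp [Matrix.one_apply, e]
    refine lt_of_eq_of_lt ?_ (res_Ob.1 h3)
    congr 1
    rw [AddSubgroupClass.coe_sub, h1]
    by_cases e : a = b <;> simp [Matrix.one_apply, e]
  have hsup : ∀ l : ℕ, l.Prime → l ∣ N₀ → l ∈ L.W ∪ L.C := fun l hl h => by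
    obtain ⟨σ, h1, h2⟩ := hram l hl h
    rw [hWC]
    by_contra hn
    refine h2 (Units.ext ?_)
    change mx D.rb σ = 1
    rw [← ok.lift, hunr l hl (by
      rw [hD.hT, Finset.mem_insert, Finset.mem_insert, not_or, not_or]
      exact ⟨hl.ne_zero, fun e => hL.odd.not_two_dvd_nat (e ▸ h), hn⟩) σ h1,
      Matrix.map_one _ (map_zero _) (map_one _)]
  have hsq : ∀ l ∈ L.C, ¬ l ^ 2 ∣ N₀ := fun l hl => by
    have hl' : l ∈ S := hWC ▸ Finset.mem_union_right L.W hl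
    refine hL.uni l (hS l hl').1 fun P hP hlP g hg => ?_
    have h1 := (hC l hl').1 hl P hP hlP g hg
    rw [← ok.lift, Matrix.trace_fin_two] at h1
    rw [← hD.tr, ← max_Ob, ← hker, Matrix.trace_fin_two, map_add]
    exact h1
  obtain ⟨d1, d2⟩ := lev_dvd ok.dj (NeZero.ne N₀) hsup
    (fun l hl => (ok.pr l (Finset.mem_union_right _ hl)).1) hsq
  set A := ∏ l ∈ L.W, l ^ N₀.factorization l with hA
  have eR : R = (∏ l ∈ L.W, l) * ∏ l ∈ L.C, l := by rw [hR, ← hWC, Finset.prod_union ok.dj]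
  have eN : A * (∏ l ∈ L.W, l) * ∏ l ∈ L.C, l = A * R := by rw [eR, mul_assoc]
  have A0 : A ≠ 0 := fun h => NeZero.ne N₀ (Nat.eq_zero_of_zero_dvd (h ▸ d1))
  have N0 : A * R ≠ 0 := mul_ne_zero A0 (NeZero.ne R)
  have dN : A * R ∣ N₀ * R := mul_dvd_mul_right d1 _
  have oR : Odd R := by
    rw [hR]
    exact Finset.prod_induction _ Odd (fun _ _ => Odd.mul) odd_one fun l hl =>
      (hS l hl).1.odd_of_ne_two (hS l hl).2
  have oN : Odd (A * R) := (hL.odd.mul oR).of_dvd_nat dN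
  have n0 := nn_pos (NeZero.ne R) (NeZero.ne N₀)
  let y : Ob E := ⟨ζ, mem_Ob.2 (norm_root n0.ne' hζ.pow_eq_one).le⟩
  have hy : IsPrimitiveRoot y (nn R N₀) :=
    IsPrimitiveRoot.of_map_of_injective (f := (Ob E).subtype) hζ Subtype.val_injective
  haveI : NeZero (nn R N₀) := ⟨n0.ne'⟩
  obtain ⟨k, -, hk⟩ := (hy.map_of_injective (f := V.Co.j) V.Co.inj).eq_pow_of_pow_eq_one
    (ξ := ze (A * R) 1) (by
      have h1 : IsPrimitiveRoot (ze (A * R) 1) (A * R) := by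
        simpa [ze] using Complex.isPrimitiveRoot_exp (A * R) N0
      exact (h1.pow_eq_one_iff_dvd _).2 (dN.trans (dvd_mul_right _ _)))
  have hdet : ∀ j : ℕ, ∃ a : ℕ, ∀ (g : GQ) (x : ℕ), Nat.Coprime x (A * R) →
      Fm.Cy (2 ^ a * (A * R)) g x → ϖ ^ j ∣ (L.r g).det - omO ω x * (x : Ob E) ^ i := fun j => by
    obtain ⟨a, ha⟩ := hW (‖(ϖ : E)‖ ^ j)
      (pow_pos (norm_pos_iff.2 fun e => hϖ.ne_zero (Subtype.ext e)) j)
    refine ⟨a, fun g x hx hg => dvd_Ob.2 ?_⟩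
    have h1 := ha g x (ZMod.unitOfCoprime x (hx.coprime_dvd_right (dvd_mul_left _ _)))
      (ZMod.coe_unitOfCoprime _ _) fun z hz => hg z (by
        rw [mul_left_comm, mul_comm, pow_mul, hz, one_pow])
    rw [← MulChar.ofUnitHom_coe, ZMod.coe_unitOfCoprime, ← hD.dt] at h1
    rw [SubmonoidClass.coe_pow, norm_pow]
    exact h1.le
  have homp : ∀ x x' : ℕ, x ≡ x' [MOD A * R] → omO ω x = omO ω x' := fun x x' h =>
    Subtype.ext (congrArg (MulChar.ofUnitHom ω)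
      ((ZMod.natCast_eq_natCast_iff _ _ _).2 (h.of_mul_left A)))
  have hodd : ∀ x : ℕ, Odd x → Nat.Coprime x (A * R) → ϖ ∣ omO ω x - 1 := fun x ox hx => by
    obtain ⟨a, ha⟩ := hdet 1
    obtain ⟨g, hg⟩ := ex_cy (mul_ne_zero (pow_ne_zero a two_ne_zero) N0)
      (Nat.Coprime.mul_right (Nat.Coprime.pow_right a (Nat.coprime_two_right.2 ox)) hx)
    have h1 := ha g x hx hg
    rw [pow_one] at h1
    have h2 : ϖ ∣ (L.r g).det - 1 := by
      rw [dv, ← hker, map_sub, map_one, RingHom.map_det, RingHom.mapMatrix_apply, ok.lift, ok.det,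
        sub_self]
    have h3 : ϖ ∣ (x : Ob E) ^ i - 1 := by
      obtain ⟨m, hm⟩ := ox.pow (n := i)
      have h4 := congrArg (Nat.cast : ℕ → Ob E) hm
      push_cast at h4
      rw [h4, add_sub_cancel_right]
      exact (dv.2 (max_Ob.2 norm_two_lt)).mul_right _
    have h4 := ((h2.sub h1).sub (h3.mul_left (omO ω x)))
    rwa [show (L.r g).det - 1 - ((L.r g).det - omO ω x * (x : Ob E) ^ i) -
      omO ω x * ((x : Ob E) ^ i - 1) = omO ω x - 1 by ring] at h4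
  refine ⟨⟨D, L, ϖ, i, A * ∏ l ∈ L.W, l, ∏ l ∈ L.C, l, N₀, y ^ k, omO ω⟩, ⟨ok,
    ⟨hϖ.ne_zero, hϖ.not_isUnit, fun a ha => dv.2 ha⟩, hi, rfl,
    fun h => N0 (by rw [← eN, show A * ∏ l ∈ L.W, l = 0 from h, zero_mul]), fun l hl => ?_,
    w3 ok hunr, ?_, fun l hl => ?_, Subtype.ext ?_, fun x x' => Subtype.ext ?_, ?_, ?_, hunr,
    fun l hl => ⟨_, _, _, hw l hl⟩, ?_, ?_, ?_, ?_, fun l hl h => ?_⟩, hϖ, ?_, hD.tr, hD.dt⟩
  · change l ∣ A * ∏ l ∈ L.W, l ↔ l ∈ L.W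
    refine ⟨fun h => ?_, fun h => (Finset.dvd_prod_of_mem _ h).mul_left _⟩
    rw [hA, ← Finset.prod_mul_distrib, hl.prime.dvd_finset_prod_iff] at h
    obtain ⟨p, hp, h⟩ := h
    rw [← pow_succ] at h
    rwa [(Nat.prime_dvd_prime_iff_eq hl (ok.pr p (Finset.mem_union_left _ hp)).1).1
      (hl.dvd_of_dvd_pow h)]
  · change V.Co.j (y ^ k) = ze (A * (∏ l ∈ L.W, l) * ∏ l ∈ L.C, l) 1
    rw [eN, map_pow, hk]
  · have h1 : l ∈ R.primeFactors := Nat.mem_primeFactors.2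
      ⟨(ok.pr l (Finset.mem_union_left _ hl)).1,
        eR ▸ (Finset.dvd_prod_of_mem _ hl).mul_right _, NeZero.ne R⟩
    obtain ⟨m, hm⟩ := (Finset.dvd_prod_of_mem (fun l => l ^ 2 - 1) h1).mul_left (N₀ * R)
    exact ⟨y ^ m, hy.pow n0 (hm.trans (mul_comm _ _))⟩
  · change MulChar.ofUnitHom ω ((1 : ℕ) : ZMod R) = 1
    rw [Nat.cast_one, map_one]
  · change MulChar.ofUnitHom ω ((x * x' : ℕ) : ZMod R) = _
    rw [Nat.cast_mul, map_mul]
    rfl
  · change ∀ x x' : ℕ, x ≡ x' [MOD A * (∏ l ∈ L.W, l) * ∏ l ∈ L.C, l] → _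
    rw [eN]
    exact homp
  · change ∀ j : ℕ, ∃ a : ℕ, ∀ (g : GQ) (x : ℕ),
      Nat.Coprime x (A * (∏ l ∈ L.W, l) * ∏ l ∈ L.C, l) →
      Fm.Cy (2 ^ a * (A * (∏ l ∈ L.W, l) * ∏ l ∈ L.C, l)) g x → _
    rw [eN]
    exact hdet
  · change ∀ x : ℕ, Nat.Coprime x (A * (∏ l ∈ L.W, l) * ∏ l ∈ L.C, l) → ϖ ∣ omO ω x - 1
    rw [eN]
    intro x hx
    rcases Nat.even_or_odd x with h | h
    · rw [homp x (x + A * R) (by simp [Nat.ModEq])]
      exact hodd _ (h.add_odd oN) (by simpa using hx)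
    · exact hodd x h hx
  · change D.red D.lam = mx D.rb D.g1 0 1
    rw [← hD.nm, ← hD.lift]
    rfl
  · change N₀ ∣ A * (∏ l ∈ L.W, l) * ∏ l ∈ L.C, l
    exact d2.trans (mul_dvd_mul_right (dvd_mul_right _ _) _)
  · intro _
    obtain ⟨k, hk⟩ := hL.res
    refine ⟨k, fun X hX => dv.2 (max_Ob.2 ?_)⟩
    have h1 := hk (fun ℓ => Fm.fr ℓ.1)
      (fun ℓ => Classical.epsilon_spec (H20.exists_isFrob ℓ.2.1)) X hX
    refine lt_of_eq_of_lt (congrArg norm ?_) h1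
    clear h1 hX
    induction X using FreeAlgebra.induction with
    | grade0 n => rw [AlgHom.commutes, AlgHom.commutes, eq_intCast, eq_intCast, Subring.coe_intCast]
    | grade1 s =>
      rw [FreeAlgebra.lift_ι_apply, FreeAlgebra.lift_ι_apply]
      rcases s with ℓ | ℓ
      · exact hD.tr _
      · exact hD.dt _
    | mul p q hp hq => rw [map_mul, map_mul, Subring.coe_mul, hp, hq]
    | add p q hp hq => rw [map_add, map_add, Subring.coe_add, hp, hq]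
  · obtain ⟨σ, h1, h2⟩ := hram l (ok.pr l (Finset.mem_union_right _ hl)).1 h
    exact tau_ne ok hl h1 h2
  · change A * (∏ l ∈ L.W, l) * ∏ l ∈ L.C, l ∣ N₀ * R
    rw [eN]
    exact dN

end Vale.Agent.P022D.Top
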